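import Vale.Agent.Lib.P362.Defs

/-!
The combinatorial part: from a heavy coordinate property to a decision tree
(majority string and a potential on the surviving certificates).
-/

namespace Vale.Agent.Lib.P362

open scoped BigOperators
open Classical

variable {n : ℕ}

/-- Heavy coordinate property with constant `A`: for every string `z` and every nonempty family of
blocks that flip the value at `z`, some coordinate lies in at least a `1/A` fraction of the blocks. -/
def Heavy (f : (Fin n → Bool) → Bool) (A : ℝ) : Prop :=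
  ∀ (z : Fin n → Bool) (C : Finset (Subcube n)) (B : Subcube n → Finset (Fin n)),
    C.Nonempty → (∀ c ∈ C, f (flip z (B c)) ≠ f z) →
      ∃ i, (C.card : ℝ) ≤ A * ((C.filter (fun c => i ∈ B c)).card : ℝ)

/-- fraction of certificates in `C` that fix the coordinate `i` to the value `v` -/
noncomputable def frac (C : Finset (Subcube n)) (i : Fin n) (v : Bool) : ℝ :=
  ((C.filter (fun c => c i = some v)).card : ℝ) / (C.card : ℝ)

lemma frac_nonneg (C : Finset (Subcube n)) (i : Fin n) (v : Bool) : 0 ≤ frac C i v := by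
  unfold frac; positivity

/-- the surviving certificates after the answer `v` at the coordinate `i` -/
noncomputable def survive (C : Finset (Subcube n)) (i : Fin n) (v : Bool) : Finset (Subcube n) :=
  C.filter (fun c => c i ≠ some (!v))

lemma card_survive (C : Finset (Subcube n)) (i : Fin n) (v : Bool) (hC : C.Nonempty) :
    ((survive C i v).card : ℝ) = (C.card : ℝ) * (1 - frac C i (!v)) := by
  have hpos : (0 : ℝ) < C.card := by exact_mod_cast hC.card_pos
  have h := Finset.card_filter_add_card_filter_not (s := C) (fun c => c i = some (!v))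
  have h' : ((C.filter (fun c => c i = some (!v))).card : ℝ) + ((survive C i v).card : ℝ)
      = C.card := by
    unfold survive
    exact_mod_cast h
  unfold frac
  field_simp
  linarith

lemma InCube_flip_conf (z : Fin n → Bool) (c : Subcube n) :
    InCube c (flip z (Finset.univ.filter (fun i => c i = some (!z i)))) := by
  intro i b hb
  unfold flip
  by_cases h : b = !z i
  · have : c i = some (!z i) := by rw [hb, h]
    simp [this, h]
  · have h1 : c i ≠ some (!z i) := by
      rw [hb]; intro h2; exact h (Option.some.inj h2)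
    have h2 : b = z i := by
      cases hb' : b <;> cases hz : z i <;> simp_all
    simp [h1, h2]

lemma exp_bound {a b : ℝ} (hb : b ≤ 1) :
    (1 - a) * (1 - b) ≤ Real.exp (-(a + b)) := by
  have h1 : 1 - a ≤ Real.exp (-a) := by
    have := Real.add_one_le_exp (-a); linarith
  have h2 : 1 - b ≤ Real.exp (-b) := by
    have := Real.add_one_le_exp (-b); linarith
  calc (1 - a) * (1 - b) ≤ Real.exp (-a) * Real.exp (-b) :=
        mul_le_mul h1 h2 (by linarith) (Real.exp_pos _).le
    _ = Real.exp (-(a + b)) := by rw [← Real.exp_add]; congr 1; ring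

lemma frac_le_one (C : Finset (Subcube n)) (i : Fin n) (v : Bool) : frac C i v ≤ 1 := by
  unfold frac
  rcases C.eq_empty_or_nonempty with h | h
  · simp [h]
  · have hpos : (0 : ℝ) < C.card := by exact_mod_cast h.card_pos
    rw [div_le_one hpos]
    exact_mod_cast Finset.card_filter_le _ _

/-- The query step: a free coordinate on which both answers remove a definite amount. -/
lemma exists_query (f : (Fin n → Bool) → Bool) (A : ℝ) (hA : Heavy f A)
    (ρ : Subcube n) (C1 C0 : Finset (Subcube n))
    (h1 : ∀ c ∈ C1, ∀ x, InCube c x → f x = true)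
    (h0 : ∀ c ∈ C0, ∀ x, InCube c x → f x = false)
    (hcomp : ∀ c ∈ C1 ∪ C0, ∀ i b b', ρ i = some b → c i = some b' → b = b')
    (hC1 : C1.Nonempty) (hC0 : C0.Nonempty) :
    0 < A ∧ ∃ i, ρ i = none ∧ ∀ v, 1 / A ≤ frac C1 i v + frac C0 i v := by
  obtain ⟨w, hw⟩ : ∃ w : Fin n → Bool → ℝ, ∀ i v, w i v = frac C1 i v + frac C0 i v :=
    ⟨_, fun _ _ => rfl⟩
  obtain ⟨z, hz1, hz2⟩ : ∃ z : Fin n → Bool, (∀ i b, ρ i = some b → z i = b) ∧
      (∀ i, ρ i = none → w i (!z i) ≤ w i (z i)) := by
    refine ⟨fun i => match ρ i with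
      | some b => b
      | none => decide (w i false ≤ w i true), ?_, ?_⟩
    · intro i b hb
      simp [hb]
    · intro i hi
      by_cases hle : w i false ≤ w i true
      · simp [hi, hle]
      · simp [hi, hle]
        exact (not_le.mp hle).le
  have hflip : ∀ c, InCube c (flip z (Finset.univ.filter (fun i => c i = some (!z i)))) :=
    fun c => InCube_flip_conf z c
  -- a heavy coordinate in a class of opposite value
  have hheavy : ∃ i, ∃ C : Finset (Subcube n), C.Nonempty ∧ (C = C1 ∨ C = C0) ∧
      (C.card : ℝ) ≤ A * ((C.filter (fun c => c i = some (!z i))).card : ℝ) := by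
    by_cases hz : f z = true
    · obtain ⟨i, hi⟩ := hA z C0 (fun c => Finset.univ.filter (fun i => c i = some (!z i))) hC0 (by
        intro c hc
        rw [h0 c hc _ (hflip c), hz]
        simp)
      refine ⟨i, C0, hC0, Or.inr rfl, ?_⟩
      simpa using hi
    · have hz' : f z = false := by simpa using hz
      obtain ⟨i, hi⟩ := hA z C1 (fun c => Finset.univ.filter (fun i => c i = some (!z i))) hC1 (by
        intro c hc
        rw [h1 c hc _ (hflip c), hz']
        simp)
      refine ⟨i, C1, hC1, Or.inl rfl, ?_⟩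
      simpa using hi
  obtain ⟨i, C, hCne, hCcase, hCi⟩ := hheavy
  have hCpos : (0 : ℝ) < C.card := by exact_mod_cast hCne.card_pos
  have hcnt_pos : (0 : ℝ) < ((C.filter (fun c => c i = some (!z i))).card : ℝ) := by
    by_contra hcon
    have : ((C.filter (fun c => c i = some (!z i))).card : ℝ) = 0 := by
      have h0' : (0 : ℝ) ≤ ((C.filter (fun c => c i = some (!z i))).card : ℝ) := by positivity
      linarith
    rw [this, mul_zero] at hCi
    linarith
  have hApos : 0 < A := by
    by_contra hcon
    have : A * ((C.filter (fun c => c i = some (!z i))).card : ℝ) ≤ 0 :=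
      mul_nonpos_of_nonpos_of_nonneg (not_lt.mp hcon) hcnt_pos.le
    linarith
  refine ⟨hApos, i, ?_⟩
  -- the fraction bound
  have hfrac : 1 / A ≤ frac C i (!z i) := by
    unfold frac
    rw [div_le_div_iff₀ hApos hCpos]
    linarith
  have hw_z : 1 / A ≤ w i (!z i) := by
    have h1' := frac_nonneg C1 i (!z i)
    have h0' := frac_nonneg C0 i (!z i)
    rw [hw]
    rcases hCcase with h | h
    · rw [h] at hfrac; linarith
    · rw [h] at hfrac; linarith
  -- the coordinate is not fixed
  have hfree : ρ i = none := by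
    cases hρ : ρ i with
    | none => rfl
    | some b =>
      exfalso
      have hzi : z i = b := hz1 i b hρ
      obtain ⟨c, hc⟩ : (C.filter (fun c => c i = some (!z i))).Nonempty := by
        rw [← Finset.card_pos]
        exact_mod_cast hcnt_pos
      rw [Finset.mem_filter] at hc
      have hcm : c ∈ C1 ∪ C0 := by
        rcases hCcase with h | h
        · exact Finset.mem_union_left _ (h ▸ hc.1)
        · exact Finset.mem_union_right _ (h ▸ hc.1)
      have := hcomp c hcm i b (!z i) hρ hc.2
      rw [hzi] at this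
      cases b <;> simp at this
  refine ⟨hfree, ?_⟩
  have hmaj := hz2 i hfree
  intro v
  have hall : ∀ v, 1 / A ≤ w i v := by
    intro v
    by_cases hv : v = z i
    · rw [hv]; linarith
    · have : v = !z i := by
        cases hv' : v <;> cases hzi : z i <;> simp_all
      rw [this]; exact hw_z
  have := hall v
  rwa [hw] at this

/-- The potential drop at a query. -/
lemma potential_step (A : ℝ) (hApos : 0 < A) (C1 C0 : Finset (Subcube n)) (i : Fin n) (v : Bool)
    (hC1 : C1.Nonempty) (hC0 : C0.Nonempty)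
    (hwv : 1 / A ≤ frac C1 i (!v) + frac C0 i (!v)) :
    (survive C1 i v).card + (survive C0 i v).card < C1.card + C0.card ∧
    (((survive C1 i v).Nonempty ∧ (survive C0 i v).Nonempty) →
      A * Real.log (((survive C1 i v).card : ℝ) * ((survive C0 i v).card : ℝ)) + 1
        ≤ A * Real.log ((C1.card : ℝ) * (C0.card : ℝ))) := by
  have hc1pos : (0 : ℝ) < C1.card := by exact_mod_cast hC1.card_pos
  have hc0pos : (0 : ℝ) < C0.card := by exact_mod_cast hC0.card_pos
  have hApos' : 0 < 1 / A := by positivity
  have e1 := card_survive C1 i v hC1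
  have e0 := card_survive C0 i v hC0
  constructor
  · have hs1 : (survive C1 i v).card ≤ C1.card := Finset.card_filter_le _ _
    have hs0 : (survive C0 i v).card ≤ C0.card := Finset.card_filter_le _ _
    by_contra hcon
    have heq1 : (survive C1 i v).card = C1.card := by omega
    have heq0 : (survive C0 i v).card = C0.card := by omega
    rw [heq1] at e1
    rw [heq0] at e0
    have hf1 : frac C1 i (!v) = 0 := by
      have : (C1.card : ℝ) * frac C1 i (!v) = 0 := by linarith
      rcases mul_eq_zero.mp this with h | h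
      · linarith
      · exact h
    have hf0 : frac C0 i (!v) = 0 := by
      have : (C0.card : ℝ) * frac C0 i (!v) = 0 := by linarith
      rcases mul_eq_zero.mp this with h | h
      · linarith
      · exact h
    rw [hf1, hf0] at hwv
    linarith
  · intro hboth
    have ha0 : 0 ≤ frac C1 i (!v) := frac_nonneg _ _ _
    have hb0 : 0 ≤ frac C0 i (!v) := frac_nonneg _ _ _
    have hb1 : frac C0 i (!v) ≤ 1 := frac_le_one _ _ _
    have hs1pos : (0 : ℝ) < (survive C1 i v).card := by exact_mod_cast hboth.1.card_pos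
    have hs0pos : (0 : ℝ) < (survive C0 i v).card := by exact_mod_cast hboth.2.card_pos
    have hprod : ((survive C1 i v).card : ℝ) * ((survive C0 i v).card : ℝ)
        ≤ ((C1.card : ℝ) * (C0.card : ℝ)) * Real.exp (-(1 / A)) := by
      rw [e1, e0]
      have hex : (1 - frac C1 i (!v)) * (1 - frac C0 i (!v)) ≤ Real.exp (-(1 / A)) :=
        (exp_bound hb1).trans (Real.exp_le_exp.mpr (by linarith))
      have : (C1.card : ℝ) * (1 - frac C1 i (!v)) * ((C0.card : ℝ) * (1 - frac C0 i (!v)))
          = ((C1.card : ℝ) * (C0.card : ℝ)) * ((1 - frac C1 i (!v)) * (1 - frac C0 i (!v))) := by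
        ring
      rw [this]
      exact mul_le_mul_of_nonneg_left hex (by positivity)
    have hlog : Real.log (((survive C1 i v).card : ℝ) * ((survive C0 i v).card : ℝ))
        ≤ Real.log ((C1.card : ℝ) * (C0.card : ℝ)) - 1 / A := by
      have := Real.log_le_log (by positivity) hprod
      rw [Real.log_mul (by positivity) (Real.exp_pos _).ne', Real.log_exp] at this
      linarith
    have hmul := mul_le_mul_of_nonneg_left hlog hApos.le
    have hAA : A * (1 / A) = 1 := by field_simp
    rw [mul_sub, hAA] at hmul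
    linarith

lemma bool_aux {v b : Bool} (h : some b ≠ some (!v)) : v = b := by
  cases v <;> cases b <;> simp at h ⊢

lemma child_compat (ρ : Subcube n) (C1 C0 : Finset (Subcube n)) (i : Fin n) (v : Bool)
    (hcomp : ∀ c ∈ C1 ∪ C0, ∀ i b b', ρ i = some b → c i = some b' → b = b') :
    ∀ c ∈ survive C1 i v ∪ survive C0 i v, ∀ j b b',
      Function.update ρ i (some v) j = some b → c j = some b' → b = b' := by
  intro c hc j b b' hρj hcj
  have hc' : c ∈ C1 ∪ C0 ∧ c i ≠ some (!v) := by
    rw [Finset.mem_union] at hc ⊢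
    rcases hc with hc | hc
    · exact ⟨Or.inl (Finset.mem_filter.mp hc).1, (Finset.mem_filter.mp hc).2⟩
    · exact ⟨Or.inr (Finset.mem_filter.mp hc).1, (Finset.mem_filter.mp hc).2⟩
  by_cases hji : j = i
  · subst hji
    rw [Function.update_self] at hρj
    have hb : v = b := Option.some.inj hρj
    subst hb
    have h2 := hc'.2
    rw [hcj] at h2
    exact bool_aux h2
  · rw [Function.update_of_ne hji] at hρj
    exact hcomp c hc'.1 j b b' hρj hcj

lemma child_cover (ρ : Subcube n) (C1 C0 : Finset (Subcube n)) (i : Fin n) (v : Bool)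
    (hfree : ρ i = none)
    (hcov : ∀ x, InCube ρ x → ∃ c ∈ C1 ∪ C0, InCube c x) :
    ∀ x, InCube (Function.update ρ i (some v)) x →
      ∃ c ∈ survive C1 i v ∪ survive C0 i v, InCube c x := by
  intro x hx
  have hxρ : InCube ρ x := by
    intro j b hj
    by_cases hji : j = i
    · subst hji; rw [hfree] at hj; simp at hj
    · apply hx j b
      rw [Function.update_of_ne hji]; exact hj
  have hxi : x i = v := hx i v (by rw [Function.update_self])
  obtain ⟨c, hc, hcx⟩ := hcov x hxρ
  refine ⟨c, ?_, hcx⟩
  have hnot : c i ≠ some (!v) := by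
    intro hcon
    have := hcx i (!v) hcon
    rw [hxi] at this
    cases v <;> simp at this
  rw [Finset.mem_union] at hc ⊢
  rcases hc with hc | hc
  · exact Or.inl (Finset.mem_filter.mpr ⟨hc, hnot⟩)
  · exact Or.inr (Finset.mem_filter.mpr ⟨hc, hnot⟩)

lemma node_correct (f : (Fin n → Bool) → Bool) (ρ : Subcube n) (i : Fin n) (l r : DTree n)
    (hl : ∀ x, InCube (Function.update ρ i (some false)) x → l.eval x = f x)
    (hr : ∀ x, InCube (Function.update ρ i (some true)) x → r.eval x = f x) :
    ∀ x, InCube ρ x → (DTree.node i l r).eval x = f x := by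
  intro x hx
  have hup : ∀ v, x i = v → InCube (Function.update ρ i (some v)) x := by
    intro v hv j b hj
    by_cases hji : j = i
    · subst hji
      rw [Function.update_self] at hj
      rw [hv]; exact Option.some.inj hj
    · rw [Function.update_of_ne hji] at hj
      exact hx j b hj
  cases hxi : x i
  · simp only [DTree.eval, hxi]
    simpa using hl x (hup false hxi)
  · simp only [DTree.eval, hxi]
    simpa using hr x (hup true hxi)

lemma node_depth (A L : ℝ) (i : Fin n) (l r : DTree n)
    (hl : (l.depth : ℝ) ≤ A * L) (hr : (r.depth : ℝ) ≤ A * L) :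
    ((DTree.node i l r).depth : ℝ) ≤ A * L + 1 := by
  simp only [DTree.depth]
  have : ((max l.depth r.depth : ℕ) : ℝ) ≤ A * L := by
    rcases le_total l.depth r.depth with h | h
    · rw [max_eq_right h]; exact hr
    · rw [max_eq_left h]; exact hl
  push_cast at this ⊢
  linarith

/-- A child of the recursion, with the induction hypothesis as an assumption. -/
lemma child_step (f : (Fin n → Bool) → Bool) (A : ℝ) (hApos : 0 < A) (k : ℕ)
    (ih : ∀ (ρ : Subcube n) (C1 C0 : Finset (Subcube n)),
      C1.card + C0.card ≤ k →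
      (∀ c ∈ C1, ∀ x, InCube c x → f x = true) →
      (∀ c ∈ C0, ∀ x, InCube c x → f x = false) →
      (∀ c ∈ C1 ∪ C0, ∀ i b b', ρ i = some b → c i = some b' → b = b') →
      (∀ x, InCube ρ x → ∃ c ∈ C1 ∪ C0, InCube c x) →
      ∃ t : DTree n, (∀ x, InCube ρ x → t.eval x = f x) ∧
        ((C1.Nonempty ∧ C0.Nonempty) →
          (t.depth : ℝ) ≤ A * Real.log ((C1.card : ℝ) * (C0.card : ℝ)) + 1) ∧
        ((¬ (C1.Nonempty ∧ C0.Nonempty)) → t.depth = 0))
    (ρ : Subcube n) (C1 C0 : Finset (Subcube n)) (hk : C1.card + C0.card ≤ k + 1)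
    (h1 : ∀ c ∈ C1, ∀ x, InCube c x → f x = true)
    (h0 : ∀ c ∈ C0, ∀ x, InCube c x → f x = false)
    (hcomp : ∀ c ∈ C1 ∪ C0, ∀ i b b', ρ i = some b → c i = some b' → b = b')
    (hcov : ∀ x, InCube ρ x → ∃ c ∈ C1 ∪ C0, InCube c x)
    (hC1 : C1.Nonempty) (hC0 : C0.Nonempty)
    (i : Fin n) (hfree : ρ i = none) (v : Bool)
    (hwv : 1 / A ≤ frac C1 i (!v) + frac C0 i (!v)) :
    ∃ t : DTree n,
      (∀ x, InCube (Function.update ρ i (some v)) x → t.eval x = f x) ∧
      (t.depth : ℝ) ≤ A * Real.log ((C1.card : ℝ) * (C0.card : ℝ)) := by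
  have hlogΦ : 0 ≤ Real.log ((C1.card : ℝ) * (C0.card : ℝ)) := by
    apply Real.log_nonneg
    have h1' : (1 : ℝ) ≤ C1.card := by exact_mod_cast hC1.card_pos
    have h0' : (1 : ℝ) ≤ C0.card := by exact_mod_cast hC0.card_pos
    nlinarith
  obtain ⟨hcard_lt, hpot⟩ := potential_step A hApos C1 C0 i v hC1 hC0 hwv
  obtain ⟨t, ht, hdep, hdep0⟩ := ih (Function.update ρ i (some v))
    (survive C1 i v) (survive C0 i v) (by omega)
    (fun c hc x hx => h1 c (Finset.mem_of_mem_filter c hc) x hx)
    (fun c hc x hx => h0 c (Finset.mem_of_mem_filter c hc) x hx)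
    (child_compat ρ C1 C0 i v hcomp)
    (child_cover ρ C1 C0 i v hfree hcov)
  refine ⟨t, ht, ?_⟩
  by_cases hboth : (survive C1 i v).Nonempty ∧ (survive C0 i v).Nonempty
  · have hd := hdep hboth
    have := hpot hboth
    linarith
  · rw [hdep0 hboth]
    simpa using mul_nonneg hApos.le hlogΦ

/-- Main recursion: a decision tree on the subcube `ρ` from the surviving certificates. -/
theorem build (f : (Fin n → Bool) → Bool) (A : ℝ) (hA : Heavy f A) :
    ∀ (k : ℕ) (ρ : Subcube n) (C1 C0 : Finset (Subcube n)),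
      C1.card + C0.card ≤ k →
      (∀ c ∈ C1, ∀ x, InCube c x → f x = true) →
      (∀ c ∈ C0, ∀ x, InCube c x → f x = false) →
      (∀ c ∈ C1 ∪ C0, ∀ i b b', ρ i = some b → c i = some b' → b = b') →
      (∀ x, InCube ρ x → ∃ c ∈ C1 ∪ C0, InCube c x) →
      ∃ t : DTree n, (∀ x, InCube ρ x → t.eval x = f x) ∧
        ((C1.Nonempty ∧ C0.Nonempty) →
          (t.depth : ℝ) ≤ A * Real.log ((C1.card : ℝ) * (C0.card : ℝ)) + 1) ∧
        ((¬ (C1.Nonempty ∧ C0.Nonempty)) → t.depth = 0) := by
  intro k
  induction k with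
  | zero =>
    intro ρ C1 C0 hk h1 h0 hcomp hcov
    have hC1 : C1 = ∅ := by
      have : C1.card = 0 := by omega
      exact Finset.card_eq_zero.mp this
    refine ⟨DTree.leaf false, ?_, ?_, ?_⟩
    · intro x hx
      obtain ⟨c, hc, hcx⟩ := hcov x hx
      rw [Finset.mem_union] at hc
      rcases hc with hc | hc
      · simp [hC1] at hc
      · simpa [DTree.eval] using (h0 c hc x hcx).symm
    · intro h; simp [hC1] at h
    · intro _; rfl
  | succ k ih =>
    intro ρ C1 C0 hk h1 h0 hcomp hcov
    by_cases hne : C1.Nonempty ∧ C0.Nonempty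
    swap
    · -- a leaf
      by_cases hC1 : C1.Nonempty
      · have hC0 : C0 = ∅ := by
          by_contra h
          exact hne ⟨hC1, Finset.nonempty_iff_ne_empty.mpr h⟩
        refine ⟨DTree.leaf true, ?_, ?_, ?_⟩
        · intro x hx
          obtain ⟨c, hc, hcx⟩ := hcov x hx
          rw [Finset.mem_union] at hc
          rcases hc with hc | hc
          · simpa [DTree.eval] using (h1 c hc x hcx).symm
          · simp [hC0] at hc
        · intro h; exact absurd h hne
        · intro _; rfl
      · have hC1' : C1 = ∅ := Finset.not_nonempty_iff_eq_empty.mp hC1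
        refine ⟨DTree.leaf false, ?_, ?_, ?_⟩
        · intro x hx
          obtain ⟨c, hc, hcx⟩ := hcov x hx
          rw [Finset.mem_union] at hc
          rcases hc with hc | hc
          · simp [hC1'] at hc
          · simpa [DTree.eval] using (h0 c hc x hcx).symm
        · intro h; exact absurd h hne
        · intro _; rfl
    · -- both classes are nonempty
      obtain ⟨hC1, hC0⟩ := hne
      obtain ⟨hApos, i, hfree, hw_all⟩ := exists_query f A hA ρ C1 C0 h1 h0 hcomp hC1 hC0
      obtain ⟨l, hl, hld⟩ := child_step f A hApos k ih ρ C1 C0 hk h1 h0 hcomp hcov hC1 hC0 i hfree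
        false (hw_all _)
      obtain ⟨r, hr, hrd⟩ := child_step f A hApos k ih ρ C1 C0 hk h1 h0 hcomp hcov hC1 hC0 i hfree
        true (hw_all _)
      refine ⟨DTree.node i l r, node_correct f ρ i l r hl hr, ?_, ?_⟩
      · intro _
        exact node_depth A _ i l r hld hrd
      · intro h
        exact absurd ⟨hC1, hC0⟩ h

/-- From a cover by monochromatic subcubes and the heavy coordinate property to a decision tree. -/
theorem tree_of_heavy (f : (Fin n → Bool) → Bool) (A : ℝ) (hA0 : 0 ≤ A) (hA : Heavy f A)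
    (𝒞 : Finset (Subcube n)) (hmono : ∀ c ∈ 𝒞, Mono f c) (hcov : ∀ x, ∃ c ∈ 𝒞, InCube c x) :
    ∃ t : DTree n, (∀ x, t.eval x = f x) ∧
      (t.depth : ℝ) ≤ 2 * A * Real.log (𝒞.card : ℝ) + 1 := by
  -- every subcube has a point
  have hpt : ∀ c : Subcube n, ∃ x, InCube c x := by
    intro c
    refine ⟨fun i => (c i).getD false, ?_⟩
    intro i b hb
    simp [hb]
  let C1 := 𝒞.filter (fun c => ∀ x, InCube c x → f x = true)
  let C0 := 𝒞.filter (fun c => ∀ x, InCube c x → f x = false)
  have hcov' : ∀ x, ∃ c ∈ C1 ∪ C0, InCube c x := by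
    intro x
    obtain ⟨c, hc, hcx⟩ := hcov x
    refine ⟨c, ?_, hcx⟩
    rw [Finset.mem_union]
    cases hfx : f x
    · right
      refine Finset.mem_filter.mpr ⟨hc, fun y hy => ?_⟩
      rw [← hfx]; exact hmono c hc y x hy hcx
    · left
      refine Finset.mem_filter.mpr ⟨hc, fun y hy => ?_⟩
      rw [← hfx]; exact hmono c hc y x hy hcx
  obtain ⟨t, ht, hd, hd0⟩ := build f A hA (C1.card + C0.card) (fun _ => none) C1 C0 le_rfl
    (fun c hc => (Finset.mem_filter.mp hc).2)
    (fun c hc => (Finset.mem_filter.mp hc).2)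
    (by intro c _ i b b' h; simp at h)
    (fun x _ => hcov' x)
  refine ⟨t, fun x => ht x (by intro i b h; simp at h), ?_⟩
  have hN : (1 : ℝ) ≤ 𝒞.card := by
    obtain ⟨c, hc, _⟩ := hcov (fun _ => false)
    exact_mod_cast Finset.card_pos.mpr ⟨c, hc⟩
  have hlogN : 0 ≤ Real.log (𝒞.card : ℝ) := Real.log_nonneg hN
  by_cases hne : C1.Nonempty ∧ C0.Nonempty
  · have h1 : (0 : ℝ) < C1.card := by exact_mod_cast hne.1.card_pos
    have h0 : (0 : ℝ) < C0.card := by exact_mod_cast hne.2.card_pos
    have hle1 : (C1.card : ℝ) ≤ 𝒞.card := by exact_mod_cast Finset.card_filter_le _ _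
    have hle0 : (C0.card : ℝ) ≤ 𝒞.card := by exact_mod_cast Finset.card_filter_le _ _
    have hprod : (C1.card : ℝ) * (C0.card : ℝ) ≤ (𝒞.card : ℝ) * (𝒞.card : ℝ) :=
      mul_le_mul hle1 hle0 h0.le (by linarith)
    have hlog := Real.log_le_log (by positivity) hprod
    have hlogN2 : Real.log ((𝒞.card : ℝ) * (𝒞.card : ℝ))
        = Real.log (𝒞.card : ℝ) + Real.log (𝒞.card : ℝ) :=
      Real.log_mul (by linarith) (by linarith)
    rw [hlogN2] at hlog
    have := hd hne
    have h2 : A * Real.log ((C1.card : ℝ) * (C0.card : ℝ))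
        ≤ A * (Real.log (𝒞.card : ℝ) + Real.log (𝒞.card : ℝ)) :=
      mul_le_mul_of_nonneg_left hlog hA0
    linarith
  · rw [hd0 hne]
    have : 0 ≤ 2 * A * Real.log (𝒞.card : ℝ) := by positivity
    simpa using by linarith

end Vale.Agent.Lib.P362
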