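import Mathlib

/-!
Decision trees, subcubes and quantum query algorithms for total Boolean functions.
-/

namespace Vale.Agent.Lib.P362

open scoped BigOperators

variable {n m : ℕ}

/-- A deterministic decision tree on `n` Boolean variables. At `node i l r` the bit `x i`
is queried; the tree continues with `l` if the bit is false and with `r` if it is true. -/
inductive DTree (n : ℕ) : Type
  | leaf : Bool → DTree n
  | node : Fin n → DTree n → DTree n → DTree n

namespace DTree

/-- Depth of a decision tree: the worst-case number of queries. -/
def depth : DTree n → ℕ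
  | leaf _ => 0
  | node _ l r => 1 + max l.depth r.depth

/-- The output of a decision tree on the input `x`. -/
def eval : DTree n → (Fin n → Bool) → Bool
  | leaf b, _ => b
  | node i l r, x => if x i then r.eval x else l.eval x

end DTree

/-- A subcube of the Boolean cube: `c i = some b` fixes the coordinate `i` to the value `b`,
and `c i = none` leaves it free. -/
abbrev Subcube (n : ℕ) := Fin n → Option Bool

/-- The point `x` lies in the subcube `c`. -/
def InCube (c : Subcube n) (x : Fin n → Bool) : Prop :=
  ∀ i b, c i = some b → x i = b

/-- The function `f` is constant on the subcube `c` (so `c` is a certificate). -/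
def Mono (f : (Fin n → Bool) → Bool) (c : Subcube n) : Prop :=
  ∀ x y, InCube c x → InCube c y → f x = f y

/-- Basis labels `|i, b, w⟩` of the state space of a query algorithm: query register `i`,
answer bit `b`, workspace `w`. -/
abbrev QIndex (n m : ℕ) := Fin n × Bool × Fin m

/-- The state space of a query algorithm with an `m`-dimensional workspace. -/
abbrev QSpace (n m : ℕ) := EuclideanSpace ℂ (QIndex n m)

/-- The permutation `|i, b, w⟩ ↦ |i, b xor x i, w⟩` of the basis labels. -/
def oraclePerm (x : Fin n → Bool) : Equiv.Perm (QIndex n m) where
  toFun p := (p.1, xor p.2.1 (x p.1), p.2.2)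
  invFun p := (p.1, xor p.2.1 (x p.1), p.2.2)
  left_inv p := by
    rcases p with ⟨i, b, w⟩
    simp
  right_inv p := by
    rcases p with ⟨i, b, w⟩
    simp

/-- The query unitary `O_x |i, b, w⟩ = |i, b xor x i, w⟩`. -/
noncomputable def oracle (x : Fin n → Bool) : QSpace n m ≃ₗᵢ[ℂ] QSpace n m :=
  LinearIsometryEquiv.piLpCongrLeft 2 ℂ ℂ (oraclePerm (n := n) (m := m) x)

/-- A quantum query algorithm: a unit initial vector, unitaries applied between the queries,
and the set of basis labels on which a final measurement accepts. -/
structure QAlg (n m : ℕ) where
  /-- initial state -/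
  init : QSpace n m
  /-- the initial state is a unit vector -/
  init_norm : ‖init‖ = 1
  /-- the unitary applied after the `t`-th query (`U 0` before the first query) -/
  U : ℕ → (QSpace n m ≃ₗᵢ[ℂ] QSpace n m)
  /-- accepting basis labels of the final measurement -/
  accept : Finset (QIndex n m)

/-- The state after `t` queries on the input `x`:
`U t O_x U (t-1) O_x ... O_x U 0 init`. -/
noncomputable def QAlg.state (A : QAlg n m) (x : Fin n → Bool) : ℕ → QSpace n m
  | 0 => A.U 0 A.init
  | t + 1 => A.U (t + 1) (oracle x (A.state x t))

/-- The acceptance probability after `T` queries on the input `x`. -/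
noncomputable def QAlg.acceptProb (A : QAlg n m) (T : ℕ) (x : Fin n → Bool) : ℝ :=
  ∑ p ∈ A.accept, ‖A.state x T p‖ ^ 2

/-- The algorithm `A` with `T` queries computes `f` with bounded error:
it outputs the correct value with probability at least `2/3` on every input. -/
def QAlg.Computes (A : QAlg n m) (T : ℕ) (f : (Fin n → Bool) → Bool) : Prop :=
  ∀ x, (f x = true → 2 / 3 ≤ A.acceptProb T x) ∧ (f x = false → A.acceptProb T x ≤ 1 / 3)

/-- The input `z` with the coordinates of `B` flipped. -/
def flip (z : Fin n → Bool) (B : Finset (Fin n)) : Fin n → Bool :=
  fun i => if i ∈ B then !z i else z i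

end Vale.Agent.Lib.P362
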