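import Vale.Agent.Lib.P362.Build

/-!
The quantum part: the hybrid argument gives the heavy coordinate property for a function computed
by a `T`-query algorithm, with constant `144 T^2`.
-/

namespace Vale.Agent.Lib.P362

open scoped BigOperators

variable {n m : ℕ}

/-- The squared amplitude of `v` on the query register value `i`. -/
noncomputable def qMass (v : QSpace n m) (i : Fin n) : ℝ :=
  ∑ b : Bool, ∑ w : Fin m, ‖v (i, b, w)‖ ^ 2

lemma qMass_nonneg (v : QSpace n m) (i : Fin n) : 0 ≤ qMass v i := by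
  unfold qMass; positivity

lemma sum_qMass (v : QSpace n m) : ∑ i, qMass v i = ‖v‖ ^ 2 := by
  rw [EuclideanSpace.norm_sq_eq]
  simp only [qMass, Fintype.sum_prod_type]

lemma oracle_apply (x : Fin n → Bool) (v : QSpace n m) (i : Fin n) (b : Bool) (w : Fin m) :
    (oracle x v) (i, b, w) = v (i, xor b (x i), w) := by
  simp [oracle, LinearIsometryEquiv.piLpCongrLeft_apply, Equiv.piCongrLeft', oraclePerm]

lemma sq_norm_sub_le (a b : ℂ) : ‖a - b‖ ^ 2 ≤ 2 * ‖a‖ ^ 2 + 2 * ‖b‖ ^ 2 := by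
  have h := norm_sub_le a b
  have h0 := norm_nonneg (a - b)
  have hs : ‖a - b‖ ^ 2 ≤ (‖a‖ + ‖b‖) ^ 2 := pow_le_pow_left₀ h0 h 2
  nlinarith [sq_nonneg (‖a‖ - ‖b‖)]

/-- The per-register bound for the difference of two oracles. -/
lemma oracle_diff_reg (x z : Fin n → Bool) (v : QSpace n m) (i : Fin n) :
    ∑ b : Bool, ∑ w : Fin m, ‖(oracle x v - oracle z v) (i, b, w)‖ ^ 2
      ≤ if i ∈ Finset.univ.filter (fun j => x j ≠ z j) then 4 * qMass v i else 0 := by
  have hsub : ∀ b w, (oracle x v - oracle z v) (i, b, w)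
      = v (i, xor b (x i), w) - v (i, xor b (z i), w) := by
    intro b w
    rw [PiLp.sub_apply, oracle_apply, oracle_apply]
  simp only [hsub]
  by_cases hi : x i = z i
  · have : i ∉ Finset.univ.filter (fun j => x j ≠ z j) := by simp [hi]
    rw [if_neg this]
    apply le_of_eq
    rw [hi]
    simp
  · have : i ∈ Finset.univ.filter (fun j => x j ≠ z j) := by simp [hi]
    rw [if_pos this]
    unfold qMass
    simp only [Fintype.sum_bool]
    have hmain : ∀ c d : Bool, c ≠ d →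
        ∑ w : Fin m, ‖v (i, xor true c, w) - v (i, xor true d, w)‖ ^ 2
          + ∑ w : Fin m, ‖v (i, xor false c, w) - v (i, xor false d, w)‖ ^ 2
        ≤ 4 * (∑ w : Fin m, ‖v (i, true, w)‖ ^ 2 + ∑ w : Fin m, ‖v (i, false, w)‖ ^ 2) := by
      intro c d hcd
      have hw : ∀ (α β : Fin m → ℂ), ∑ w : Fin m, ‖α w - β w‖ ^ 2
          ≤ 2 * ∑ w : Fin m, ‖α w‖ ^ 2 + 2 * ∑ w : Fin m, ‖β w‖ ^ 2 := by
        intro α β
        rw [Finset.mul_sum, Finset.mul_sum, ← Finset.sum_add_distrib]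
        exact Finset.sum_le_sum (fun w _ => sq_norm_sub_le _ _)
      have h1 := hw (fun w => v (i, true, w)) (fun w => v (i, false, w))
      have h2 := hw (fun w => v (i, false, w)) (fun w => v (i, true, w))
      cases c <;> cases d
      · exact absurd rfl hcd
      · show ∑ w : Fin m, ‖v (i, true, w) - v (i, false, w)‖ ^ 2
          + ∑ w : Fin m, ‖v (i, false, w) - v (i, true, w)‖ ^ 2 ≤ _
        linarith
      · show ∑ w : Fin m, ‖v (i, false, w) - v (i, true, w)‖ ^ 2
          + ∑ w : Fin m, ‖v (i, true, w) - v (i, false, w)‖ ^ 2 ≤ _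
        linarith
      · exact absurd rfl hcd
    exact hmain (x i) (z i) hi

/-- The difference of two oracles only sees the registers where the inputs differ. -/
lemma oracle_diff (x z : Fin n → Bool) (v : QSpace n m) :
    ‖oracle x v - oracle z v‖ ^ 2
      ≤ 4 * ∑ i ∈ Finset.univ.filter (fun j => x j ≠ z j), qMass v i := by
  rw [EuclideanSpace.norm_sq_eq]
  simp only [Fintype.sum_prod_type]
  calc ∑ i : Fin n, ∑ b : Bool, ∑ w : Fin m, ‖(oracle x v - oracle z v) (i, b, w)‖ ^ 2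
      ≤ ∑ i : Fin n, (if i ∈ Finset.univ.filter (fun j => x j ≠ z j) then 4 * qMass v i else 0) :=
        Finset.sum_le_sum (fun i _ => oracle_diff_reg x z v i)
    _ = 4 * ∑ i ∈ Finset.univ.filter (fun j => x j ≠ z j), qMass v i := by
        rw [Finset.mul_sum, Finset.sum_ite_mem]
        simp

lemma norm_state (A : QAlg n m) (x : Fin n → Bool) (t : ℕ) : ‖A.state x t‖ = 1 := by
  induction t with
  | zero => simp [QAlg.state, A.init_norm]
  | succ t ih =>
    simp [QAlg.state, ih]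

/-- The hybrid bound. -/
lemma state_diff (A : QAlg n m) (x z : Fin n → Bool) (t : ℕ) :
    ‖A.state x t - A.state z t‖
      ≤ ∑ s ∈ Finset.range t, ‖oracle x (A.state z s) - oracle z (A.state z s)‖ := by
  induction t with
  | zero => simp [QAlg.state]
  | succ t ih =>
    rw [Finset.sum_range_succ]
    have h1 : A.state x (t + 1) - A.state z (t + 1)
        = A.U (t + 1) (oracle x (A.state x t) - oracle z (A.state z t)) := by
      simp [QAlg.state, map_sub]
    rw [h1, LinearIsometryEquiv.norm_map]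
    have h2 : oracle x (A.state x t) - oracle z (A.state z t)
        = oracle x (A.state x t - A.state z t)
          + (oracle x (A.state z t) - oracle z (A.state z t)) := by
      rw [map_sub]; abel
    rw [h2]
    refine (norm_add_le _ _).trans ?_
    rw [LinearIsometryEquiv.norm_map]
    linarith

/-- Acceptance probabilities of two unit vectors are close. -/
lemma accept_close {ι : Type*} [Fintype ι] (S : Finset ι) (a b : EuclideanSpace ℂ ι)
    (ha : ‖a‖ = 1) (hb : ‖b‖ = 1) :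
    |∑ p ∈ S, ‖a p‖ ^ 2 - ∑ p ∈ S, ‖b p‖ ^ 2| ≤ 2 * ‖a - b‖ := by
  have hsumle : ∀ c : EuclideanSpace ℂ ι, ∑ p ∈ S, ‖c p‖ ^ 2 ≤ ‖c‖ ^ 2 := by
    intro c
    rw [EuclideanSpace.norm_sq_eq]
    exact Finset.sum_le_sum_of_subset_of_nonneg (Finset.subset_univ _) (fun _ _ _ => by positivity)
  set X := ∑ p ∈ S, ‖(a - b) p‖ * (‖a p‖ + ‖b p‖) with hX
  have hX0 : 0 ≤ X := Finset.sum_nonneg (fun _ _ => by positivity)
  have hCS : X ^ 2 ≤ (∑ p ∈ S, ‖(a - b) p‖ ^ 2) * (∑ p ∈ S, (‖a p‖ + ‖b p‖) ^ 2) :=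
    Finset.sum_mul_sq_le_sq_mul_sq _ _ _
  have h1 : ∑ p ∈ S, ‖(a - b) p‖ ^ 2 ≤ ‖a - b‖ ^ 2 := hsumle _
  have h2 : ∑ p ∈ S, (‖a p‖ + ‖b p‖) ^ 2 ≤ 4 := by
    have h3 : ∑ p ∈ S, (‖a p‖ + ‖b p‖) ^ 2
        ≤ ∑ p ∈ S, (2 * ‖a p‖ ^ 2 + 2 * ‖b p‖ ^ 2) :=
      Finset.sum_le_sum (fun p _ => by nlinarith [sq_nonneg (‖a p‖ - ‖b p‖)])
    rw [Finset.sum_add_distrib, ← Finset.mul_sum, ← Finset.mul_sum] at h3
    have h4 := hsumle a
    have h5 := hsumle b
    rw [ha] at h4
    rw [hb] at h5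
    nlinarith
  have h6 : X ^ 2 ≤ (2 * ‖a - b‖) ^ 2 := by
    have h7 : 0 ≤ ∑ p ∈ S, ‖(a - b) p‖ ^ 2 := Finset.sum_nonneg (fun _ _ => by positivity)
    have h8 : 0 ≤ ∑ p ∈ S, (‖a p‖ + ‖b p‖) ^ 2 := Finset.sum_nonneg (fun _ _ => by positivity)
    calc X ^ 2 ≤ (∑ p ∈ S, ‖(a - b) p‖ ^ 2) * (∑ p ∈ S, (‖a p‖ + ‖b p‖) ^ 2) := hCS
      _ ≤ ‖a - b‖ ^ 2 * 4 := mul_le_mul h1 h2 h8 (by positivity)
      _ = (2 * ‖a - b‖) ^ 2 := by ring
  have h9 : X ≤ 2 * ‖a - b‖ := (pow_le_pow_iff_left₀ hX0 (by positivity) two_ne_zero).mp h6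
  refine le_trans ?_ h9
  rw [← Finset.sum_sub_distrib]
  refine (Finset.abs_sum_le_sum_abs _ _).trans (Finset.sum_le_sum (fun p _ => ?_))
  have h10 : ‖a p‖ ^ 2 - ‖b p‖ ^ 2 = (‖a p‖ - ‖b p‖) * (‖a p‖ + ‖b p‖) := by ring
  rw [h10, abs_mul]
  have h11 : |‖a p‖ - ‖b p‖| ≤ ‖(a - b) p‖ := by
    rw [PiLp.sub_apply]
    exact abs_norm_sub_norm_le _ _
  have h12 : |‖a p‖ + ‖b p‖| = ‖a p‖ + ‖b p‖ := abs_of_nonneg (by positivity)
  rw [h12]
  exact mul_le_mul_of_nonneg_right h11 (by positivity)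

/-- Two inputs with different values are separated at the end of the algorithm. -/
lemma separated (A : QAlg n m) (T : ℕ) (f : (Fin n → Bool) → Bool) (hA : A.Computes T f)
    (x z : Fin n → Bool) (hxz : f x ≠ f z) :
    1 / 6 ≤ ‖A.state x T - A.state z T‖ := by
  have h := accept_close A.accept (A.state x T) (A.state z T) (norm_state A x T) (norm_state A z T)
  have hx := hA x
  have hz := hA z
  have hsep : 1 / 3 ≤ |A.acceptProb T x - A.acceptProb T z| := by
    cases hfx : f x <;> cases hfz : f z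
    · exact absurd (hfx.trans hfz.symm) hxz
    · have h1 := hx.2 hfx
      have h2 := hz.1 hfz
      rw [abs_sub_comm]
      exact le_trans (by linarith) (le_abs_self _)
    · have h1 := hx.1 hfx
      have h2 := hz.2 hfz
      exact le_trans (by linarith) (le_abs_self _)
    · exact absurd (hfx.trans hfz.symm) hxz
  unfold QAlg.acceptProb at hsep
  linarith

lemma filter_flip (z : Fin n → Bool) (B : Finset (Fin n)) :
    Finset.univ.filter (fun j => flip z B j ≠ z j) = B := by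
  ext j
  simp only [Finset.mem_filter, Finset.mem_univ, true_and, flip]
  by_cases hj : j ∈ B <;> simp [hj]

/-- The load of a flipping block along the computation on `z`. -/
lemma load_bound (A : QAlg n m) (T : ℕ) (f : (Fin n → Bool) → Bool) (hA : A.Computes T f)
    (z : Fin n → Bool) (B : Finset (Fin n)) (hB : f (flip z B) ≠ f z) :
    1 ≤ 144 * (T : ℝ) * ∑ s ∈ Finset.range T, ∑ i ∈ B, qMass (A.state z s) i := by
  have h1 := separated A T f hA (flip z B) z hB
  have h2 := state_diff A (flip z B) z T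
  have h3 : ∀ s, ‖oracle (flip z B) (A.state z s) - oracle z (A.state z s)‖
      ≤ 2 * Real.sqrt (∑ i ∈ B, qMass (A.state z s) i) := by
    intro s
    have h4 := oracle_diff (flip z B) z (A.state z s)
    rw [filter_flip] at h4
    have h5 : (0 : ℝ) ≤ ∑ i ∈ B, qMass (A.state z s) i :=
      Finset.sum_nonneg (fun i _ => qMass_nonneg _ i)
    have h6 : ‖oracle (flip z B) (A.state z s) - oracle z (A.state z s)‖ ^ 2
        ≤ (2 * Real.sqrt (∑ i ∈ B, qMass (A.state z s) i)) ^ 2 := by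
      rw [mul_pow, Real.sq_sqrt h5]
      linarith
    exact (pow_le_pow_iff_left₀ (norm_nonneg _) (by positivity) two_ne_zero).mp h6
  have h7 : 1 / 12 ≤ ∑ s ∈ Finset.range T, Real.sqrt (∑ i ∈ B, qMass (A.state z s) i) := by
    have h8 : ∑ s ∈ Finset.range T, ‖oracle (flip z B) (A.state z s) - oracle z (A.state z s)‖
        ≤ ∑ s ∈ Finset.range T, 2 * Real.sqrt (∑ i ∈ B, qMass (A.state z s) i) :=
      Finset.sum_le_sum (fun s _ => h3 s)
    rw [← Finset.mul_sum] at h8
    linarith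
  have h9 := sq_sum_le_card_mul_sum_sq (s := Finset.range T)
    (f := fun s => Real.sqrt (∑ i ∈ B, qMass (A.state z s) i))
  have h10 : ∑ s ∈ Finset.range T, (Real.sqrt (∑ i ∈ B, qMass (A.state z s) i)) ^ 2
      = ∑ s ∈ Finset.range T, ∑ i ∈ B, qMass (A.state z s) i := by
    apply Finset.sum_congr rfl
    intro s _
    exact Real.sq_sqrt (Finset.sum_nonneg (fun i _ => qMass_nonneg _ i))
  rw [h10, Finset.card_range] at h9
  have h11 : (1 / 12 : ℝ) ^ 2
      ≤ (∑ s ∈ Finset.range T, Real.sqrt (∑ i ∈ B, qMass (A.state z s) i)) ^ 2 :=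
    pow_le_pow_left₀ (by norm_num) h7 2
  nlinarith

/-- A function computed by a `T`-query algorithm has the heavy coordinate property. -/
theorem heavy_of_computes (A : QAlg n m) (T : ℕ) (f : (Fin n → Bool) → Bool)
    (hA : A.Computes T f) : Heavy f (144 * (T : ℝ) ^ 2) := by
  classical
  intro z C B hC hB
  have hn : Nonempty (Fin n) := by
    by_contra hn
    obtain ⟨c, hc⟩ := hC
    apply hB c hc
    congr 1
    funext i
    exact absurd ⟨i⟩ hn
  obtain ⟨i0, _, hi0⟩ := Finset.exists_max_image Finset.univ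
    (fun i => ((C.filter (fun c => i ∈ B c)).card : ℝ)) Finset.univ_nonempty
  refine ⟨i0, ?_⟩
  set N : ℝ := ((C.filter (fun c => i0 ∈ B c)).card : ℝ) with hN
  have hN0 : 0 ≤ N := by rw [hN]; positivity
  -- sum of the load bounds over the family
  have h1 : (C.card : ℝ) ≤ ∑ c ∈ C, 144 * (T : ℝ) *
      ∑ s ∈ Finset.range T, ∑ i ∈ B c, qMass (A.state z s) i := by
    have : (C.card : ℝ) = ∑ c ∈ C, (1 : ℝ) := by simp
    rw [this]
    exact Finset.sum_le_sum (fun c hc => load_bound A T f hA z (B c) (hB c hc))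
  have h2 : ∀ s, ∑ c ∈ C, ∑ i ∈ B c, qMass (A.state z s) i ≤ N := by
    intro s
    have h3 : ∑ c ∈ C, ∑ i ∈ B c, qMass (A.state z s) i
        = ∑ i, ((C.filter (fun c => i ∈ B c)).card : ℝ) * qMass (A.state z s) i := by
      have h4 : ∀ c, ∑ i ∈ B c, qMass (A.state z s) i
          = ∑ i, (if i ∈ B c then qMass (A.state z s) i else 0) := by
        intro c
        rw [Finset.sum_ite_mem]
        simp
      simp only [h4]
      rw [Finset.sum_comm]
      apply Finset.sum_congr rfl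
      intro i _
      rw [Finset.card_filter]
      push_cast
      rw [Finset.sum_mul]
      apply Finset.sum_congr rfl
      intro c _
      split_ifs <;> simp
    rw [h3]
    calc ∑ i, ((C.filter (fun c => i ∈ B c)).card : ℝ) * qMass (A.state z s) i
        ≤ ∑ i, N * qMass (A.state z s) i :=
          Finset.sum_le_sum (fun i _ =>
            mul_le_mul_of_nonneg_right (hi0 i (Finset.mem_univ i)) (qMass_nonneg _ i))
      _ = N := by
          rw [← Finset.mul_sum, sum_qMass, norm_state]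
          simp
  have h5 : ∑ c ∈ C, 144 * (T : ℝ) * ∑ s ∈ Finset.range T, ∑ i ∈ B c, qMass (A.state z s) i
      = 144 * (T : ℝ) * ∑ s ∈ Finset.range T, ∑ c ∈ C, ∑ i ∈ B c, qMass (A.state z s) i := by
    rw [← Finset.mul_sum, Finset.sum_comm]
  have h6 : ∑ s ∈ Finset.range T, ∑ c ∈ C, ∑ i ∈ B c, qMass (A.state z s) i ≤ (T : ℝ) * N := by
    calc ∑ s ∈ Finset.range T, ∑ c ∈ C, ∑ i ∈ B c, qMass (A.state z s) i
        ≤ ∑ s ∈ Finset.range T, N := Finset.sum_le_sum (fun s _ => h2 s)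
      _ = (T : ℝ) * N := by simp
  rw [h5] at h1
  have hT0 : (0 : ℝ) ≤ 144 * (T : ℝ) := by positivity
  have h7 := mul_le_mul_of_nonneg_left h6 hT0
  calc (C.card : ℝ) ≤ 144 * (T : ℝ) * ((T : ℝ) * N) := h1.trans h7
    _ = 144 * (T : ℝ) ^ 2 * N := by ring

end Vale.Agent.Lib.P362
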